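import Mathlib

/-!
# [D] descendants: the abstract reduction to level zero
-/

namespace Vale.Agent.P269.G1

open Finset.HasAntidiagonal (antidiagonal)

/-- Genus-zero and genus-one data at a general point of the big phase space.
`w i j` is `S_{lev i - j}` of the class of the variable `i`. -/
structure Big (ι β R O : Type*) [Fintype β] [DecidableEq β] [CommRing R] [Algebra ℚ R]
    [Ring O] [Algebra R O] where
  D : ι → R → R
  D_add : ∀ i f g, D i (f + g) = D i f + D i g
  D_mul : ∀ i f g, D i (f * g) = D i f * g + f * D i g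
  DO : ι → O → O
  DO_add : ∀ i a b, DO i (a + b) = DO i a + DO i b
  DO_mul : ∀ i a b, DO i (a * b) = DO i a * b + a * DO i b
  DO_smul : ∀ i (r : R) a, DO i (r • a) = D i r • a + r • DO i a
  act : O →ₐ[R] Module.End R (β → R)
  D_act : ∀ i a (x : β → R) b, D i (act a x b) = act (DO i a) x b + act a (fun c => D i (x c)) b
  str : O →ₗ[R] R
  str_comm : ∀ a b, str (a * b) = str (b * a)
  D_str : ∀ i a, D i (str a) = str (DO i a)
  C : (β → R) →ₗ[R] O
  C_comm : ∀ x y, act (C x) y = act (C y) x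
  C_mul : ∀ x y, C (act (C x) y) = C x * C y
  mu : O
  DO_mu : ∀ i, DO i mu = 0
  U : O
  w : ι → ℕ → β → R
  g : ℕ → β → R
  C_g : C (g 1) = 1
  C_U : C (act U (g 1)) = U
  D_g : ∀ i j b, D i (g (j + 1) b) = act (C (w i 0)) (g (j + 2)) b - w i (j + 1) b
  D_w : ∀ i j l b, D i (w j l b) = act (C (w i 0)) (w j (l + 1)) b
  DO_U : ∀ i, DO i U = C (w i 0) + C (w i 0) * mu - mu * C (w i 0)
  C_symm : ∀ i j, DO i (C (w j 0)) = DO j (C (w i 0))
  i0 : β → ι
  w_zero : ∀ b, w (i0 b) 0 = Pi.single b 1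
  w_succ : ∀ b l, w (i0 b) (l + 1) = 0
  G : (β → R) →ₗ[R] R
  G_symm : ∀ i j, D i (G (w j 0) + (1 / 24 : ℚ) • str (C (w j 1))) =
    D j (G (w i 0) + (1 / 24 : ℚ) • str (C (w i 1)))

namespace Big

variable {ι β R O : Type*} [Fintype β] [DecidableEq β] [CommRing R] [Algebra ℚ R]
    [Ring O] [Algebra R O] (S : Big ι β R O)

/-- the linear part of the genus-one Virasoro coefficient -/
noncomputable def zlin (K : ℕ) : R :=
  - (S.G (S.act (S.U ^ K) (S.g 1)) + (1 / 24 : ℚ) • S.str (S.C (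
      (∑ e ∈ antidiagonal K, if e.1 = 0 then 0 else
        S.act (S.U ^ (e.1 - 1) * (algebraMap R O (algebraMap ℚ R (3 / 2)) + S.mu) * S.U ^ e.2)
          (S.g 1)) + S.act (S.U ^ K) (S.g 2))))

end Big

end Vale.Agent.P269.G1
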