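import Vale.Agent.P269.G1I.Ser
import Vale.Agent.P269.G1I.BAbs
import Vale.Agent.P269.H597.MainA

/-!
# [D] descendants: definitions and leaves
-/

namespace Vale.Agent.P269.G1

open Finset.HasAntidiagonal (antidiagonal)
open Vale.Agent.P269.CI
open Vale.Agent.P269.H597 (coh)

/-- functions on a finite-dimensional part of the big phase space -/
abbrev RB (n : ℕ) := MvPowerSeries (Fin n) (PowerSeries ℂ)

/-- a finite family of insertions `τ_m(h^j)` which contains `h^0, …, h^dim` -/
structure Fam (X : CompleteIntersection) (n : ℕ) where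
  e : Fin n → Fin (X.dim + 1) × ℕ
  i0 : Fin (X.dim + 1) → Fin n
  e_i0 : ∀ b, e (i0 b) = (b, 0)

variable {X : CompleteIntersection} {n : ℕ}

/-- the insertion of the variable `i` -/
def Fam.ins (E : Fam X n) (i : Fin n) : Ins X := (Sum.inl (E.e i).1, (E.e i).2)

/-- the function with the given coefficients -/
noncomputable def sr (E : Fam X n) (A : ℕ → List (Ins X) → ℂ) : RB n :=
  toSer fun L => PowerSeries.mk fun d => A d (L.map E.ins)

/-- symmetric on the lists of the family -/
def SymF (E : Fam X n) (A : ℕ → List (Ins X) → ℂ) : Prop :=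
  ∀ d (L M : List (Fin n)), L.Perm M → A d (L.map E.ins) = A d (M.map E.ins)

variable (E : Fam X n) {F : ℕ → ℕ → List (Ins X) → ℂ}

/-- constants -/
noncomputable def cb (n : ℕ) (c : ℂ) : RB n := MvPowerSeries.C (PowerSeries.C c)

/-- operators: matrices on the ambient part, diagonal operators on the primitive part -/
abbrev OB (X : CompleteIntersection) (n : ℕ) : Type :=
  Matrix (Fin (X.dim + 1)) (Fin (X.dim + 1)) (RB n) × (X.Prim → RB n)

/-- two-point functions -/
noncomputable def VB (F : ℕ → ℕ → List (Ins X) → ℂ) (a b : Ins X) : RB n := sr E (cor F 0 [a, b])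

/-- `S_k`: the matrix entry `(c, b)` is the coefficient of `e_c` in `S_k e_b` -/
noncomputable def SB (h1 : IsGenusOne F) : ℕ → OB X n
  | 0 => 1
  | k + 1 => (Matrix.of fun c b => ∑ a : Fin (X.dim + 1),
      pairingInv X (Sum.inl a) (Sum.inl c) • VB E F (Sum.inl b, k) (Sum.inl a, 0),
      fun _ => sr E (fun d L => Classical.choose h1.mono2 k 0 d L))

/-- the (big) quantum multiplication by `x` -/
noncomputable def CB (h1 : IsGenusOne F) : (Fin (X.dim + 1) → RB n) →ₗ[RB n] OB X n where
  toFun x := (Matrix.of fun c b => ∑ j, x j * ∑ a : Fin (X.dim + 1),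
      pairingInv X (Sum.inl a) (Sum.inl c) • sr E (cor F 0 [hpow X j, hpow X b, hpow X a]),
      fun _ => ∑ j, x j * sr E (fun d L => Classical.choose h1.mono2 0 0 d (hpow X j :: L)))
  map_add' x y := by
    refine Prod.ext ?_ ?_
    · refine Matrix.ext fun c b => ?_
      change ∑ j, (x j + y j) * _ = ∑ j, x j * _ + ∑ j, y j * _
      rw [← Finset.sum_add_distrib]
      exact Finset.sum_congr rfl fun j _ => by ring
    · funext v
      change ∑ j, (x j + y j) * _ = ∑ j, x j * _ + ∑ j, y j * _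
      rw [← Finset.sum_add_distrib]
      exact Finset.sum_congr rfl fun j _ => by ring
  map_smul' r x := by
    refine Prod.ext ?_ ?_
    · refine Matrix.ext fun c b => ?_
      change ∑ j, (r * x j) * _ = r * ∑ j, x j * _
      rw [Finset.mul_sum]
      exact Finset.sum_congr rfl fun j _ => by ring
    · funext v
      change ∑ j, (r * x j) * _ = r * ∑ j, x j * _
      rw [Finset.mul_sum]
      exact Finset.sum_congr rfl fun j _ => by ring

/-- `μ` -/
noncomputable def muB (X : CompleteIntersection) (n : ℕ) : OB X n :=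
  (Matrix.diagonal fun b => cb n (mu X (Sum.inl b)), fun v => cb n (mu X (Sum.inr v)))

/-- the classical multiplication by `c_1` -/
noncomputable def RBcl (X : CompleteIntersection) (n : ℕ) : OB X n :=
  (Matrix.of fun c b => cb n (c1 X (Sum.inl b) (Sum.inl c)), 0)

/-- `U` -/
noncomputable def UB (h1 : IsGenusOne F) : OB X n :=
  SB E h1 1 + SB E h1 1 * muB X n - muB X n * SB E h1 1 + RBcl X n

/-- supertrace -/
noncomputable def strB (X : CompleteIntersection) (n : ℕ) : OB X n →ₗ[RB n] RB n where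
  toFun a := Matrix.trace a.1 + cb n ((-1) ^ X.dim) * ∑ v, a.2 v
  map_add' a b := by
    change Matrix.trace (a.1 + b.1) + cb n ((-1) ^ X.dim) * ∑ v, (a.2 v + b.2 v) = _
    rw [Matrix.trace_add, Finset.sum_add_distrib]
    ring
  map_smul' r a := by
    change Matrix.trace (r • a.1) + cb n ((-1) ^ X.dim) * ∑ v, (r * a.2 v) = r * _
    rw [Matrix.trace_smul, ← Finset.mul_sum, smul_eq_mul]
    ring

/-- the derivative of the genus-one potential in the directions of level zero -/
noncomputable def GB (F : ℕ → ℕ → List (Ins X) → ℂ) : (Fin (X.dim + 1) → RB n) →ₗ[RB n] RB n where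
  toFun x := ∑ j, x j * sr E (cor F 1 [hpow X j])
  map_add' x y := by
    change ∑ j, (x j + y j) * _ = ∑ j, x j * _ + ∑ j, y j * _
    rw [← Finset.sum_add_distrib]
    exact Finset.sum_congr rfl fun j _ => by ring
  map_smul' r x := by
    change ∑ j, (r * x j) * _ = r * ∑ j, x j * _
    rw [Finset.mul_sum]
    exact Finset.sum_congr rfl fun j _ => by ring

/-- `w_{i,j} = S_{m_i - j} e_{a_i}` -/
noncomputable def wB (h1 : IsGenusOne F) (i : Fin n) (j : ℕ) : Fin (X.dim + 1) → RB n := fun c =>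
  if j ≤ (E.e i).2 then (SB E h1 ((E.e i).2 - j)).1 c (E.e i).1 else 0

/-- `g_j`: minus the coefficient of `z^j` of `S (∑ x_i z^{m_i} e_{a_i} - z e_0)` -/
noncomputable def gB (h1 : IsGenusOne F) (j : ℕ) : Fin (X.dim + 1) → RB n := fun c =>
  (if j ≤ 1 then (SB E h1 (1 - j)).1 c 0 else 0) - ∑ i, MvPowerSeries.X i * wB E h1 i j c

/-- entrywise derivative -/
noncomputable def dB (i : Fin n) (a : OB X n) : OB X n :=
  (a.1.map (MvPowerSeries.pderiv (PowerSeries ℂ) i),
    fun v => MvPowerSeries.pderiv (PowerSeries ℂ) i (a.2 v))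

/-- action on vectors -/
noncomputable def actB (X : CompleteIntersection) (n : ℕ) :
    OB X n →ₐ[RB n] Module.End (RB n) (Fin (X.dim + 1) → RB n) :=
  (Matrix.toLinAlgEquiv' (R := RB n) (n := Fin (X.dim + 1))).toAlgHom.comp
    (AlgHom.fst (RB n) (Matrix (Fin (X.dim + 1)) (Fin (X.dim + 1)) (RB n)) (X.Prim → RB n))

/-- a constant vector -/
noncomputable def eB (X : CompleteIntersection) (n : ℕ) (b : Fin (X.dim + 1)) : Fin (X.dim + 1) → RB n :=
  Pi.single b 1

/-- `c + μ` on vectors -/
noncomputable def muc (X : CompleteIntersection) (n : ℕ) (c : ℂ) : OB X n :=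
  (Matrix.diagonal fun b => cb n (c + mu X (Sum.inl b)), fun v => cb n (c + mu X (Sum.inr v)))

/-- the vector `-𝒜_0(l_0 τ)` -/
noncomputable def calE (h1 : IsGenusOne F) : Fin (X.dim + 1) → RB n :=
  actB X n (SB E h1 1 * muc X n (3 / 2) + RBcl X n) (eB X n 0) -
    ∑ i, (MvPowerSeries.X i : RB n) •
      (actB X n (SB E h1 (E.e i).2 * muc X n ((E.e i).2 + 1 / 2)) (eB X n (E.e i).1) +
      if (E.e i).2 = 0 then 0 else
        actB X n (SB E h1 ((E.e i).2 - 1) * RBcl X n) (eB X n (E.e i).1))

/-- the loop term -/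
noncomputable def loopB (F : ℕ → ℕ → List (Ins X) → ℂ) (k : ℕ) : RB n :=
  sr E (fun d L => (coh X).loop (F 0 d) k L)

/-! ### the vectors `l_k τ` -/

/-- `τ = ∑ x_i z^{m_i} e_{a_i} - z e_0` -/
noncomputable def tauB (E : Fam X n) (p : ℕ) : Fin (X.dim + 1) → RB n := fun b =>
  (∑ i, if E.e i = (b, p) then (MvPowerSeries.X i : RB n) else 0) -
    if p = 1 ∧ b = 0 then 1 else 0

/-- the polynomial part of `z c - (∂ F_0)(c)`, `N` a bound for the degree -/
noncomputable def cZB (h1 : IsGenusOne F) (N : ℕ) (c : ℕ → Fin (X.dim + 1) → RB n) :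
    ℕ → Fin (X.dim + 1) → RB n
  | 0 => - ∑ m ∈ Finset.range N, actB X n (SB E h1 (m + 1)) (c m)
  | p + 1 => c p

/-- the polynomial part of `l_0 c`, `l_0 = z d/dz + 1/2 + μ + R/z` -/
noncomputable def cLB (c : ℕ → Fin (X.dim + 1) → RB n) : ℕ → Fin (X.dim + 1) → RB n := fun p =>
  actB X n (muc X n (p + 1 / 2)) (c p) + actB X n (RBcl X n) (c (p + 1))

/-- the polynomial part of `l_k` applied to the point of the cone; `N` a bound for the degree -/
noncomputable def cB (h1 : IsGenusOne F) (N : ℕ) : ℕ → ℕ → Fin (X.dim + 1) → RB n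
  | 0 => cLB (tauB E)
  | k + 1 => cLB (cZB E h1 N (cB h1 N k))

end Vale.Agent.P269.G1
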