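import Vale.Agent.P269.G1I.BSpec
import Vale.Agent.P269.G1I.T.H302_DH
import Vale.Agent.P269.G1I.T.H410_BWdvv
import Vale.Agent.P269.G1I.T.H440_GString
import Vale.Agent.P269.G1I.T.H513_CU
import Vale.Agent.P269.G1I.T.H598_DG

/-!
# [D] descendants: definitions and leaves
-/

namespace Vale.Agent.P269.G1

open Finset.HasAntidiagonal (antidiagonal)
open Vale.Agent.P269.CI
open Vale.Agent.P269.H597 (coh)

variable {X : CompleteIntersection} {n : ℕ}

variable (E : Fam X n) {F : ℕ → ℕ → List (Ins X) → ℂ}

/-- the data at a general point of the big phase space -/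
noncomputable def big (hF : IsGW X F) (h1 : IsGenusOne F) :
    Big (Fin n) (Fin (X.dim + 1)) (RB n) (OB X n) where
  D i f := MvPowerSeries.pderiv (PowerSeries ℂ) i f
  D_add i f g := map_add _ f g
  D_mul i f g := by
    rw [Derivation.leibniz, smul_eq_mul, smul_eq_mul]
    ring
  DO := dB
  DO_add := bDO_add
  DO_mul := bDO_mul
  DO_smul := bDO_smul
  act := actB X n
  D_act := bD_act
  str := strB X n
  str_comm := bstr_comm
  D_str := bD_str
  C := CB E h1
  C_comm := CB_comm E hF h1
  C_mul := CB_mul E hF h1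
  mu := muB X n
  DO_mu := bDO_mu
  U := UB E h1
  w := wB E h1
  g := gB E h1
  C_g := CB_g E hF h1
  C_U := CB_U E hF h1
  D_g := bD_g E hF h1
  D_w := bD_w E hF h1
  DO_U := bDO_U E hF h1
  C_symm := bC_symm E hF h1
  i0 := E.i0
  w_zero := bw_zero E h1
  w_succ := bw_succ E h1
  G := GB E F
  G_symm := bG_symm E hF h1

/-! ### the vectors `l_k τ` -/

end Vale.Agent.P269.G1
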