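import Vale.Agent.P269.G1I.Alg

/-!
# The polynomial annihilating the Euler field
-/

namespace Vale.Agent.P269.G1

open Finset.HasAntidiagonal (antidiagonal)
open Polynomial

section ops

variable {R A O : Type*} [CommRing R] [Algebra ℚ R] [CommRing A] [Algebra R A]
    [Ring O] [Algebra R O]

namespace Frob

variable (S : Frob R A O)

/-- `psi_n = ∑_{a+b=n-1} U^a μ U^b` -/
noncomputable def psi (n : ℕ) : O := ∑ e ∈ antidiagonal n, if e.1 = 0 then 0 else
  S.C (S.E ^ (e.1 - 1)) * S.mu * S.C (S.E ^ e.2)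

/-- `phi_n = ∑_{a+b=n-1} E^a μ(E^b)` -/
noncomputable def phi (n : ℕ) : A := ∑ e ∈ antidiagonal n, if e.1 = 0 then 0 else
  S.E ^ (e.1 - 1) * (S.d (S.E ^ e.2) - (algebraMap ℚ R S.rho) • S.E ^ e.2)

end Frob

end ops

section alg

variable {R A : Type*} [CommRing R] [Algebra ℚ R] [CommRing A] [Algebra R A]

end alg

section ode

variable {n : ℕ} {K : Type*} [CommRing K] [Algebra ℚ K]

end ode

section ideal

variable {K : Type*} [Field K] [CharZero K]

end ideal

end Vale.Agent.P269.G1
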