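import Vale.Agent.P269.G1I.Ser

/-!
# Stage 1: structure constants of the ambient quantum product
-/

namespace Vale.Agent.P269.G1

open Finset.HasAntidiagonal (antidiagonal)
open Vale.Agent.P269.CI

variable {X : CompleteIntersection}

/-- structure constants of the quantum product on the ambient part -/
noncomputable def qc (F : ℕ → ℕ → List (Ins X) → ℂ) (i j k : Fin (X.dim + 1)) : RR X :=
  ∑ l : Fin (X.dim + 1),
    pairingInv X (Sum.inl l) (Sum.inl k) • ser (cor F 0 [hpow X i, hpow X j, hpow X l])

variable {F : ℕ → ℕ → List (Ins X) → ℂ}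

end Vale.Agent.P269.G1
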