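import Vale.Agent.P269.G1I.Qc
import Vale.Agent.P269.G1I.T.H598_Cor

/-!
# Stage 2: vector fields, connection, grading, Euler field
-/

namespace Vale.Agent.P269.G1

open Finset.HasAntidiagonal (antidiagonal)
open Vale.Agent.P269.CI

variable {X : CompleteIntersection} {F : ℕ → ℕ → List (Ins X) → ℂ}

/-- the structure constants -/
noncomputable def consts (hF : IsGW X F) (h1 : IsGenusOne F) : Consts X.dim (RR X) where
  c := qc F
  comm := qc_comm hF
  assoc := qc_assoc hF h1
  unit := qc_unit hF

/-- the ambient quantum algebra -/
abbrev AA (hF : IsGW X F) (h1 : IsGenusOne F) : Type := QA (consts hF h1)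

variable (hF : IsGW X F) (h1 : IsGenusOne F)

/-- derivative along a vector field -/
noncomputable def der (x : AA hF h1) (f : RR X) : RR X :=
  ∑ i, x i * MvPowerSeries.pderiv (PowerSeries ℂ) i f

/-- the flat connection -/
noncomputable def nab (x y : AA hF h1) : AA hF h1 := fun k => der hF h1 x (y k)

/-- the grading operator -/
noncomputable def dd : AA hF h1 →ₗ[RR X] AA hF h1 where
  toFun x := fun k => ((k : ℕ) : RR X) * x k
  map_add' x y := by
    funext k
    change _ * (x k + y k) = _ * x k + _ * y k
    ring
  map_smul' r x := by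
    funext k
    change _ * (r * x k) = r * (_ * x k)
    ring

/-- the Euler field `∑ (1-i) t_i e_i + ν e_1` -/
noncomputable def Eu : AA hF h1 := fun k =>
  (1 - ((k : ℕ) : RR X)) * MvPowerSeries.X k +
    if (k : ℕ) = 1 then ((index X : ℤ) : RR X) else 0

/-- `λ_i`: quantum multiplication by `h^i` on the primitive part -/
noncomputable def lamc (i : Fin (X.dim + 1)) : RR X :=
  ser (fun d L => Classical.choose h1.mono2 0 0 d (hpow X i :: L))

/-- constants -/
noncomputable def cst (X : CompleteIntersection) (c : ℂ) : RR X :=
  MvPowerSeries.C (PowerSeries.C c)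

end Vale.Agent.P269.G1
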