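import Vale.Agent.P269.G1I.Oper
import Vale.Agent.P269.G1I.Poly
import Vale.Agent.P269.G1I.T.H310_C4
import Vale.Agent.P269.G1I.T.H310_C6
import Vale.Agent.P269.G1I.T.H510_Rules
import Vale.Agent.P269.G1I.T.H510_Symm
import Vale.Agent.P269.G1I.T.H819_C5a
import Vale.Agent.P269.G1I.T.H819_C5b

/-!
# Stage 4: the small phase space of a complete intersection, and what is left to prove
-/

namespace Vale.Agent.P269.G1

open Finset.HasAntidiagonal (antidiagonal)
open Vale.Agent.P269.CI
open Polynomial (aeval)

variable {X : CompleteIntersection} {F : ℕ → ℕ → List (Ins X) → ℂ}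

variable (hF : IsGW X F) (h1 : IsGenusOne F)

theorem der_cst (x : AA hF h1) (c : ℂ) : der hF h1 x (cst X c) = 0 := by
  refine Finset.sum_eq_zero fun i _ => ?_
  have h : MvPowerSeries.pderiv (PowerSeries ℂ) i (cst X c) = 0 := by
    unfold cst
    exact MvPowerSeries.pderiv_C
  rw [h, mul_zero]

/-- The small phase space with ambient coordinates. -/
noncomputable def frob : Frob (RR X) (AA hF h1) (OO hF h1) where
  der := der hF h1
  der_add_left := der_add_left hF h1
  der_smul_left := der_smul_left hF h1
  der_add := der_add hF h1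
  der_mul := der_mul hF h1
  der_rat := der_rat hF h1
  nab := nab hF h1
  nab_add_left := nab_add_left hF h1
  nab_smul_left := nab_smul_left hF h1
  nab_add := nab_add hF h1
  nab_smul := nab_smul hF h1
  nab_one := nab_one hF h1
  der_comm := der_comm hF h1
  d := dd hF h1
  d_one := d_one hF h1
  nab_d := nab_d hF h1
  E := Eu hF h1
  nab_E := nab_E hF h1
  c4_symm := c4_symm hF h1
  c4_E := c4_E hF h1
  c5_symm := c5_symm hF h1
  C := CC hF h1
  mu := muO hF h1
  nabO := nabO hF h1
  nabO_add := nabO_add hF h1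
  nabO_mul := nabO_mul hF h1
  nabO_smul := nabO_smul hF h1
  nabO_mu := nabO_mu hF h1
  nabO_U := nabO_U hF h1
  c4O_symm := c4O_symm hF h1
  str := strO hF h1
  str_comm := str_comm hF h1
  der_str := der_str hF h1
  rho := (X.dim : ℚ) / 2
  G := GG hF h1
  G_symm := G_symm hF h1
  G_one := G_one hF h1
  der_G_E x := by
    rw [G_E hF h1]
    exact der_cst hF h1 x _

/-- the constant `ν^ν ∏ d_i^{d_i}` -/
noncomputable def cq (X : CompleteIntersection) : ℂ :=
  (index X : ℂ) ^ (X.dim + 1 - excess X) * (X.degs.map fun d : ℕ => (d : ℂ) ^ d).prod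

/-- the Poincaré pairing -/
noncomputable def eta : AA hF h1 →ₗ[RR X] AA hF h1 →ₗ[RR X] RR X :=
  LinearMap.mk₂ (RR X)
    (fun x y => ∑ i : Fin (X.dim + 1), ∑ j : Fin (X.dim + 1),
      cst X (pairing X (Sum.inl i) (Sum.inl j)) * (x i * y j))
    (fun x x' y => by
      change ∑ i : Fin (X.dim + 1), ∑ j : Fin (X.dim + 1),
        cst X (pairing X (Sum.inl i) (Sum.inl j)) * ((x i + x' i) * y j) = _
      rw [← Finset.sum_add_distrib]
      refine Finset.sum_congr rfl fun i _ => ?_
      rw [← Finset.sum_add_distrib]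
      exact Finset.sum_congr rfl fun j _ => by ring)
    (fun c x y => by
      change ∑ i : Fin (X.dim + 1), ∑ j : Fin (X.dim + 1),
        cst X (pairing X (Sum.inl i) (Sum.inl j)) * ((c * x i) * y j) = c * _
      rw [Finset.mul_sum]
      refine Finset.sum_congr rfl fun i _ => ?_
      rw [Finset.mul_sum]
      exact Finset.sum_congr rfl fun j _ => by ring)
    (fun x y y' => by
      change ∑ i : Fin (X.dim + 1), ∑ j : Fin (X.dim + 1),
        cst X (pairing X (Sum.inl i) (Sum.inl j)) * (x i * (y j + y' j)) = _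
      rw [← Finset.sum_add_distrib]
      refine Finset.sum_congr rfl fun i _ => ?_
      rw [← Finset.sum_add_distrib]
      exact Finset.sum_congr rfl fun j _ => by ring)
    (fun c x y => by
      change ∑ i : Fin (X.dim + 1), ∑ j : Fin (X.dim + 1),
        cst X (pairing X (Sum.inl i) (Sum.inl j)) * (x i * (c * y j)) = c * _
      rw [Finset.mul_sum]
      refine Finset.sum_congr rfl fun i _ => ?_
      rw [Finset.mul_sum]
      exact Finset.sum_congr rfl fun j _ => by ring)

end Vale.Agent.P269.G1
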