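import Vale.Agent.P269.H597.Defs

/-!
# Genus-one axioms for complete intersections
-/

namespace Vale.Agent.P269.CI

open Finset.HasAntidiagonal (antidiagonal)

variable (X : CompleteIntersection)

/-- The insertion of `h^j` without descendants. -/
def hpow (j : Fin (X.dim + 1)) : Ins X := (Sum.inl j, 0)

/-- Insertions `τ_m(h^j)`. -/
def IsAmb (x : Ins X) : Prop := ∃ j, x.1 = Sum.inl j

/-- `∑ (d_i - 1)`. -/
def excess : ℕ := (X.degs.map fun d => d - 1).sum

variable {X}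

/-- The product of two families of coefficients, indexed by the degree and the list. -/
noncomputable def mulS (A B : ℕ → List (Ins X) → ℂ) (d : ℕ) (L : List (Ins X)) : ℂ :=
  ∑ e ∈ antidiagonal d, shuffle X L (A e.1) (B e.2)

/-- Genus `g` correlators with the first insertions `P`. -/
def cor (F : ℕ → ℕ → List (Ins X) → ℂ) (g : ℕ) (P : List (Ins X)) (d : ℕ) (L : List (Ins X)) : ℂ :=
  F g d (P ++ L)

/-- One ordered term of Getzler's relation in genus one. -/
noncomputable def getzlerTerm (F : ℕ → ℕ → List (Ins X) → ℂ) (v : Fin 4 → Fin (X.dim + 1))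
    (d : ℕ) (L : List (Ins X)) : ℂ :=
  ∑ α : Ix X, ∑ β : Ix X, ∑ γ : Ix X, ∑ δ : Ix X, pairingInv X α β * pairingInv X γ δ *
    (3 * mulS (mulS (cor F 0 [hpow X (v 0), hpow X (v 1), (α, 0)])
          (cor F 0 [hpow X (v 2), hpow X (v 3), (γ, 0)])) (cor F 1 [(β, 0), (δ, 0)]) d L
      - 4 * mulS (mulS (cor F 0 [hpow X (v 0), hpow X (v 1), (α, 0)])
          (cor F 0 [(β, 0), hpow X (v 2), (γ, 0)])) (cor F 1 [(δ, 0), hpow X (v 3)]) d L
      - mulS (mulS (cor F 0 [hpow X (v 0), hpow X (v 1), (α, 0)])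
          (cor F 0 [(β, 0), hpow X (v 2), hpow X (v 3), (γ, 0)])) (cor F 1 [(δ, 0)]) d L
      + 2 * mulS (mulS (cor F 0 [hpow X (v 0), hpow X (v 1), hpow X (v 2), (α, 0)])
          (cor F 0 [(β, 0), hpow X (v 3), (γ, 0)])) (cor F 1 [(δ, 0)]) d L
      + 1 / 6 * mulS (cor F 0 [hpow X (v 0), hpow X (v 1), hpow X (v 2), (α, 0)])
          (cor F 0 [(β, 0), hpow X (v 3), (γ, 0), (δ, 0)]) d L
      + 1 / 24 * mulS (cor F 0 [hpow X (v 0), hpow X (v 1), hpow X (v 2), hpow X (v 3), (α, 0)])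
          (cor F 0 [(β, 0), (γ, 0), (δ, 0)]) d L
      - 1 / 4 * mulS (cor F 0 [hpow X (v 0), hpow X (v 1), (α, 0), (γ, 0)])
          (cor F 0 [(δ, 0), (β, 0), hpow X (v 2), hpow X (v 3)]) d L)

/-- The matrix of quantum multiplication by `h` at the origin. -/
noncomputable def qmul (F : ℕ → ℕ → List (Ins X) → ℂ) :
    Matrix (Fin (X.dim + 1)) (Fin (X.dim + 1)) (PowerSeries ℂ) :=
  Matrix.of fun i j => ∑ k, PowerSeries.mk (fun d => F 0 d [(hcls X, 0), hpow X i, hpow X k]) *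
    PowerSeries.C (pairingInv X (Sum.inl k) (Sum.inl j))

/-- The axioms used in genus one: topological recursion, Getzler's relation (both for
insertions from the ambient space), invariance under monodromy and the small quantum ring
(index at least two). -/
structure IsGenusOne (F : ℕ → ℕ → List (Ins X) → ℂ) : Prop where
  trr1 : ∀ d (j : Fin (X.dim + 1)) m L, (∀ x ∈ L, IsAmb X x) →
    F 1 d ((Sum.inl j, m + 1) :: L) =
      (∑ α, ∑ β, pairingInv X α β * mulS (cor F 0 [(Sum.inl j, m), (α, 0)])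
        (cor F 1 [(β, 0)]) d L) +
      1 / 24 * ∑ α, ∑ β, pairingInv X α β * F 0 d ((Sum.inl j, m) :: (α, 0) :: (β, 0) :: L)
  getzler : ∀ (v : Fin 4 → Fin (X.dim + 1)) d (L : List (Fin (X.dim + 1))),
    ∑ σ : Equiv.Perm (Fin 4), getzlerTerm F (v ∘ σ) d (L.map (hpow X)) = 0
  mono1 : ∀ g d (v : X.Prim) m L, (∀ x ∈ L, IsAmb X x) → F g d ((Sum.inr v, m) :: L) = 0
  mono2 : ∃ Λ : ℕ → ℕ → ℕ → List (Ins X) → ℂ, ∀ d (v w : X.Prim) m n L,
    (∀ x ∈ L, IsAmb X x) →
      F 0 d ((Sum.inr v, m) :: (Sum.inr w, n) :: L) = X.form v w * Λ m n d L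
  mono3 : ∀ d (u v w : X.Prim) L, (∀ x ∈ L, IsAmb X x) →
    F 0 d ((Sum.inr u, 0) :: (Sum.inr v, 0) :: (Sum.inr w, 0) :: L) = 0
  quantum : 2 ≤ index X → ∀ j, ((qmul F) ^ (X.dim + 1)) 0 j =
    PowerSeries.C ((X.degs.map fun d : ℕ => (d : ℂ) ^ d).prod) * PowerSeries.X *
      ((qmul F) ^ excess X) 0 j

end Vale.Agent.P269.CI
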