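import Mathlib

/-!
# [ZA] the abstract recursion for the conjugated Virasoro operators
-/

namespace Vale.Agent.P269.G1

open Finset.HasAntidiagonal (antidiagonal)

section

variable (R : Type*) {O : Type*} [CommRing R] [Algebra ℚ R] [Ring O] [Algebra R O]

/-- rational numbers as elements of `O` -/
def kk (q : ℚ) : O := algebraMap R O (algebraMap ℚ R q)

/-- `D c K p`: the component `p` of `T^K δ_c`, `(T s)_p = (p - 1/2 + μ) s_{p-1} + U s_p` -/
def DD (U mu : O) (c : ℤ) : ℕ → ℤ → O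
  | 0, p => if p = c then 1 else 0
  | K + 1, p => (kk R ((p : ℚ) - 1 / 2) + mu) * DD U mu c K (p - 1) + U * DD U mu c K p

/-- `∑ i, S_{m+K-i-p} R^i ee_{m,K,i}` -/
def aK (S : ℤ → O) (Rc : O) (ee : ℤ → ℕ → ℕ → O) (m : ℤ) (K : ℕ) (p : ℤ) : O :=
  ∑ i ∈ Finset.range (K + 1), S (m + K - i - p) * Rc ^ i * ee m K i

end

end Vale.Agent.P269.G1
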