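import Vale.Agent.P269.G1I.Oper
import Vale.Agent.P269.G1I.ZAbs

/-!
# [Z] the genus-one Virasoro constraints on the small phase space: definitions and leaves
-/

namespace Vale.Agent.P269.G1

open Finset.HasAntidiagonal (antidiagonal)
open Vale.Agent.P269.CI

variable {X : CompleteIntersection} {F : ℕ → ℕ → List (Ins X) → ℂ}

/-- two-point functions in genus zero on the small phase space -/
noncomputable def W (F : ℕ → ℕ → List (Ins X) → ℂ) (a b : Ins X) : RR X := ser (cor F 0 [a, b])

variable (hF : IsGW X F) (h1 : IsGenusOne F)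

/-- the endomorphism `e_i ↦ ∑ k, M i k e_k` -/
noncomputable def mkEnd (M : Fin (X.dim + 1) → Fin (X.dim + 1) → RR X) :
    Module.End (RR X) (AA hF h1) where
  toFun x := fun k => ∑ i, x i * M i k
  map_add' x y := by
    funext k
    change ∑ i, (x i + y i) * M i k = ∑ i, x i * M i k + ∑ i, y i * M i k
    rw [← Finset.sum_add_distrib]
    exact Finset.sum_congr rfl fun i _ => by ring
  map_smul' r x := by
    funext k
    change ∑ i, (r * x i) * M i k = r * ∑ i, x i * M i k
    rw [Finset.mul_sum]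
    exact Finset.sum_congr rfl fun i _ => by ring

/-- the two-point function of two primitive classes divided by the form -/
noncomputable def Lam (m n : ℕ) : RR X :=
  ser (fun d L => Classical.choose h1.mono2 m n d L)

/-- `S_n` -/
noncomputable def SS : ℕ → OO hF h1
  | 0 => 1
  | n + 1 => (mkEnd hF h1 (fun i k => ∑ b : Fin (X.dim + 1),
      pairingInv X (Sum.inl b) (Sum.inl k) • W F (Sum.inl i, n) (Sum.inl b, 0)),
      fun _ => Lam h1 n 0)

/-- the adjoint of `S_n` -/
noncomputable def ST : ℕ → OO hF h1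
  | 0 => 1
  | n + 1 => (mkEnd hF h1 (fun i k => ∑ b : Fin (X.dim + 1),
      pairingInv X (Sum.inl b) (Sum.inl k) • W F (Sum.inl b, n) (Sum.inl i, 0)),
      fun _ => Lam h1 n 0)

/-- `S_n` for integers `n` -/
noncomputable def SZ (n : ℤ) : OO hF h1 := if n < 0 then 0 else SS hF h1 n.toNat

/-- the classical multiplication by `c_1` -/
noncomputable def Rcl : OO hF h1 :=
  (mkEnd hF h1 (fun i k => cst X (c1 X (Sum.inl i) (Sum.inl k))), 0)

/-- functions of `μ` -/
noncomputable def fmu (g : ℂ → ℂ) : OO hF h1 :=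
  (mkEnd hF h1 (fun i k => if i = k then cst X (g (mu X (Sum.inl i))) else 0),
    fun v => cst X (g (mu X (Sum.inr v))))

/-- `[x]^{K-1}_i` at `x = μ + m + 1/2` -/
noncomputable def ee (m : ℤ) (K i : ℕ) : OO hF h1 :=
  fmu hF h1 (fun x => esym K i (x + (m : ℂ) + 1 / 2))

/-- the one-point function with the insertion `x z^n` -/
noncomputable def Gam (n : ℤ) (x : AA hF h1) : RR X :=
  GG hF h1 ((SZ hF h1 n).1 x) +
    (1 / 24 : ℂ) • strO hF h1 (CC hF h1 ((SZ hF h1 (n - 1)).1 x))

/-- the genus zero part of `linTerm` and of the mixed products, as a series -/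
noncomputable def linS (F : ℕ → ℕ → List (Ins X) → ℂ) (K : ℕ) (m : ℕ) (a : Fin (X.dim + 1)) :
    RR X :=
  ∑ i ∈ Finset.range (K + 1), ∑ b : Fin (X.dim + 1), if i + 1 ≤ m + K then
    (esym K i ((m : ℂ) + 1 / 2 + mu X (Sum.inl a)) * c1pow X i (Sum.inl a) (Sum.inl b)) •
      ser (cor F 1 [(Sum.inl b, m + K - 1 - i)]) else 0

/-- the coefficients of the second order part -/
noncomputable def qco (X : CompleteIntersection) (K m i : ℕ) (a b c : Ix X) : ℂ :=
  (-1) ^ (m + 1) * esym K i (mu X a - m - 1 / 2) * pairingInv X a b * c1pow X i a c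

/-- the mixed products -/
noncomputable def mixS (F : ℕ → ℕ → List (Ins X) → ℂ) (K : ℕ) : RR X :=
  ∑ m ∈ Finset.range (K - 1), ∑ i ∈ Finset.range (K - 1 - m),
    ∑ a : Fin (X.dim + 1), ∑ b : Fin (X.dim + 1), ∑ c : Fin (X.dim + 1),
      qco X K m i (Sum.inl a) (Sum.inl b) (Sum.inl c) •
        (ser (cor F 0 [(Sum.inl b, m)]) * ser (cor F 1 [(Sum.inl c, K - 2 - m - i)]))

/-- the loop term -/
noncomputable def loopS (F : ℕ → ℕ → List (Ins X) → ℂ) (K : ℕ) : RR X :=
  (1 / 2 : ℂ) • ∑ m ∈ Finset.range (K - 1), ∑ i ∈ Finset.range (K - 1 - m), ∑ a, ∑ b, ∑ c,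
      qco X K m i a b c • W F (c, K - 2 - m - i) (b, m)

end Vale.Agent.P269.G1
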