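import Vale.Agent.P269.G1I.ZSpec
import Vale.Agent.P269.G1I.T.H406_ZA1
import Vale.Agent.P269.G1I.T.H410_Unit
import Vale.Agent.P269.G1I.T.H905_ZB0
import Vale.Agent.P269.G1I.T.H937_SZEuler

/-!
# [Z] the genus-one Virasoro constraints on the small phase space: definitions and leaves
-/

namespace Vale.Agent.P269.G1

open Finset.HasAntidiagonal (antidiagonal)
open Vale.Agent.P269.CI

variable {X : CompleteIntersection} {F : ℕ → ℕ → List (Ins X) → ℂ}

variable (hF : IsGW X F) (h1 : IsGenusOne F)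

/-- **[ZG1]** the abstract recursion for the operators of `X` -/
theorem conj_X (c p : ℤ) (K N : ℕ) (hN : c - p + K < N) :
    ∑ n ∈ Finset.range N, (-1) ^ n * (aK (SZ hF h1) (Rcl hF h1) (ee hF h1) (c - n) K p *
      ST hF h1 n) = DD (RR X) (CC hF h1 (Eu hF h1)) (muO hF h1) c K p :=
  conj (RR X) _ _ _ _ _ _ (SZ_euler hF h1) (mu_Rcl hF h1)
    (fun n hn => by unfold SZ; rw [if_pos hn]) (SS_ST hF h1) (ee_zero_zero hF h1)
    (ee_zero_succ hF h1) (ee_succ_zero hF h1) (ee_succ_succ hF h1) c p K N hN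

end Vale.Agent.P269.G1
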