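import Vale.Agent.P269.G1I.Alg
import Vale.Agent.P269.G1I.Poly
import Vale.Agent.P269.G1I.Ser
import Vale.Agent.P269.G1I.Qc
import Vale.Agent.P269.G1I.Model
import Vale.Agent.P269.G1I.Oper
import Vale.Agent.P269.G1I.Conc
import Vale.Agent.P269.G1I.ZAbs
import Vale.Agent.P269.G1I.ZSpec
import Vale.Agent.P269.G1I.ZConj
import Vale.Agent.P269.G1I.BAbs
import Vale.Agent.P269.G1I.BSpec
import Vale.Agent.P269.G1I.BBig
import Vale.Agent.P269.G1I.Defs
import Vale.Agent.P269.G1I.T.H124_DA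
import Vale.Agent.P269.G1I.T.H246_One
import Vale.Agent.P269.G1I.T.H246_Wt
import Vale.Agent.P269.G1I.T.H276_Pow
import Vale.Agent.P269.G1I.T.H302_DF
import Vale.Agent.P269.G1I.T.H302_DH
import Vale.Agent.P269.G1I.T.H310_C4
import Vale.Agent.P269.G1I.T.H310_C6
import Vale.Agent.P269.G1I.T.H333_Eta
import Vale.Agent.P269.G1I.T.H36_WEuler
import Vale.Agent.P269.G1I.T.H406_ZA1
import Vale.Agent.P269.G1I.T.H410_BTrr
import Vale.Agent.P269.G1I.T.H410_BWdvv
import Vale.Agent.P269.G1I.T.H410_Lamc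
import Vale.Agent.P269.G1I.T.H410_LamcMul
import Vale.Agent.P269.G1I.T.H410_Unit
import Vale.Agent.P269.G1I.T.H410_WTrr
import Vale.Agent.P269.G1I.T.H440_Descend
import Vale.Agent.P269.G1I.T.H440_GString
import Vale.Agent.P269.G1I.T.H440_QcoSymm
import Vale.Agent.P269.G1I.T.H440_TrrOne
import Vale.Agent.P269.G1I.T.H510_Rules
import Vale.Agent.P269.G1I.T.H510_Symm
import Vale.Agent.P269.G1I.T.H513_CU
import Vale.Agent.P269.G1I.T.H521_SrB
import Vale.Agent.P269.G1I.T.H521_SymVir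
import Vale.Agent.P269.G1I.T.H598_Cor
import Vale.Agent.P269.G1I.T.H598_DG
import Vale.Agent.P269.G1I.T.H598_Killed
import Vale.Agent.P269.G1I.T.H598_LinMix
import Vale.Agent.P269.G1I.T.H598_Ode
import Vale.Agent.P269.G1I.T.H598_OmPoly
import Vale.Agent.P269.G1I.T.H598_Root
import Vale.Agent.P269.G1I.T.H598_Ser
import Vale.Agent.P269.G1I.T.H598_Skew
import Vale.Agent.P269.G1I.T.H598_VirSmall
import Vale.Agent.P269.G1I.T.H654_Getzler
import Vale.Agent.P269.G1I.T.H660_Closure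
import Vale.Agent.P269.G1I.T.H660_Key
import Vale.Agent.P269.G1I.T.H660_Loop
import Vale.Agent.P269.G1I.T.H780_Cyc
import Vale.Agent.P269.G1I.T.H780_VirBig
import Vale.Agent.P269.G1I.T.H819_C5a
import Vale.Agent.P269.G1I.T.H819_C5b
import Vale.Agent.P269.G1I.T.H819_Q45
import Vale.Agent.P269.G1I.T.H856_DC2
import Vale.Agent.P269.G1I.T.H901_CorOne
import Vale.Agent.P269.G1I.T.H905_ZB0
import Vale.Agent.P269.G1I.T.H920_Closed
import Vale.Agent.P269.G1I.T.H937_SZEuler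
import Vale.Agent.P269.G1I.T.H960_Ze
import Vale.Agent.P269.G1I.T.H980_SerVir
import Vale.Agent.P269.G1I.T.H980_VirAct
import Vale.Agent.P269.G1I.T.H984_DeZero
import Vale.Agent.P269.G1I.T.H984_SBEuler
import Vale.Agent.P269.G1I.T.H984_ZA2

/-!
# All statements of the genus-one tree
-/
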